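import Vale.Agent.P181.NR.Defs

set_option autoImplicit false

/-!
# P181, NR, block N8: the numbers
-/

namespace Vale.Agent.P181.NR.H118

open Vale.Agent.P181.H280 (plethMult)
open Vale.Agent.P181.FR (gw)

lemma tele (L : ℕ → ℕ) (hL : ∀ k, L (k + 1) ≤ L k) (k m : ℕ) (hk : k ≤ m) :
    (∑ j ∈ Finset.Ioc k m, (L (j - 1) - L j)) + L m = L k := by
  induction m, hk using Nat.le_induction with
  | base => simp
  | succ m hm ih =>
    rw [← Finset.insert_Ioc_right_eq_Ioc_add_one (by omega), Finset.sum_insert (by simp)]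
    have h1 := hL m
    have h2 : m + 1 - 1 = m := rfl
    rw [h2]
    omega

lemma sum_swap (g : ℕ → ℕ) (m : ℕ) :
    ∑ k ∈ Finset.range m, ∑ j ∈ Finset.Ioc k m, g j = ∑ j ∈ Finset.Icc 1 m, j * g j := by
  rw [Finset.sum_comm' (s' := fun j => Finset.range j) (t' := Finset.Icc 1 m)]
  · apply Finset.sum_congr rfl
    intro j _
    rw [Finset.sum_const, Finset.card_range, smul_eq_mul]
  · intro k j
    simp only [Finset.mem_range, Finset.mem_Ioc, Finset.mem_Icc]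
    omega

/-- the sequence extended by zero -/
def ext {m : ℕ} (lam : Fin m → ℕ) (k : ℕ) : ℕ := if h : k < m then lam ⟨k, h⟩ else 0

lemma ext_anti {m : ℕ} {lam : Fin m → ℕ} (h : Antitone lam) (k : ℕ) :
    ext lam (k + 1) ≤ ext lam k := by
  unfold ext
  split_ifs with h1 h2 h2
  · exact h (by rw [Fin.le_def]; simp)
  · omega
  · omega
  · omega

/-- the gaps -/
def gap {m : ℕ} (lam : Fin m → ℕ) (j : ℕ) : ℕ := ext lam (j - 1) - ext lam j

lemma ext_eq {m : ℕ} {lam : Fin m → ℕ} (h : Antitone lam) (k : ℕ)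
    (hk : k ≤ m) : ∑ j ∈ Finset.Ioc k m, gap lam j = ext lam k := by
  have h1 := tele (ext lam) (ext_anti h) k m hk
  have h2 : ext lam m = 0 := by simp [ext]
  rw [h2, add_zero] at h1
  exact h1

lemma gw_gap {m : ℕ} {lam : Fin m → ℕ} (h : Antitone lam) :
    gw m (gap lam) = lam := by
  funext k
  change ∑ j ∈ Finset.Ioc (k : ℕ) m, gap lam j = lam k
  rw [ext_eq h _ k.2.le, ext, dif_pos k.2]

lemma sum_gap {m : ℕ} {lam : Fin m → ℕ} (h : Antitone lam) :
    ∑ j ∈ Finset.Icc 1 m, j * gap lam j = ∑ i, lam i := by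
  rw [← sum_swap, ← Fin.sum_univ_eq_sum_range (fun k => ∑ j ∈ Finset.Ioc k m, gap lam j)]
  apply Finset.sum_congr rfl
  intro k _
  rw [ext_eq h _ k.2.le, ext, dif_pos k.2]

lemma log_choose_le (a u : ℕ) (ha : 0 < a) :
    Real.log ((a + u).choose u) ≤ a * (2 + max 0 (Real.log u - Real.log a)) := by
  have ha' : (0 : ℝ) < a := by exact_mod_cast ha
  have h1 : ((a + u).choose u : ℝ) ≤ ((a + u : ℕ) : ℝ) ^ a / (a.factorial : ℝ) := by
    rw [← Nat.choose_symm_add]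
    exact Nat.choose_le_pow_div a (a + u)
  have h2 : (a : ℝ) ^ a / (a.factorial : ℝ) ≤ Real.exp a :=
    Real.pow_div_factorial_le_exp (a : ℝ) ha'.le a
  have hf : (0 : ℝ) < a.factorial := by exact_mod_cast a.factorial_pos
  have hx : (0 : ℝ) < ((a + u : ℕ) : ℝ) / a := by positivity
  have h3 : ((a + u).choose u : ℝ) ≤ (((a + u : ℕ) : ℝ) / a) ^ a * Real.exp a := by
    calc ((a + u).choose u : ℝ) ≤ ((a + u : ℕ) : ℝ) ^ a / (a.factorial : ℝ) := h1
      _ = (((a + u : ℕ) : ℝ) / a) ^ a * ((a : ℝ) ^ a / (a.factorial : ℝ)) := by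
          rw [div_pow]
          field_simp
      _ ≤ _ := mul_le_mul_of_nonneg_left h2 (pow_nonneg hx.le _)
  have h4 : Real.log ((a + u).choose u) ≤ a * Real.log (((a + u : ℕ) : ℝ) / a) + a := by
    have h5 : (0 : ℝ) < (a + u).choose u := by
      exact_mod_cast Nat.choose_pos (Nat.le_add_left u a)
    refine (Real.log_le_log h5 h3).trans ?_
    rw [Real.log_mul (pow_pos hx _).ne' (Real.exp_pos _).ne', Real.log_pow, Real.log_exp]
  have h6 : Real.log (((a + u : ℕ) : ℝ) / a) ≤ 1 + max 0 (Real.log u - Real.log a) := by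
    have hlog2 : Real.log 2 ≤ 1 := by
      have := Real.log_two_lt_d9
      linarith
    rcases le_total u a with h | h
    · have h7 : ((a + u : ℕ) : ℝ) / a ≤ 2 := by
        rw [div_le_iff₀ ha']
        have : (u : ℝ) ≤ a := by exact_mod_cast h
        push_cast
        linarith
      have := Real.log_le_log hx h7
      have h8 := le_max_left 0 (Real.log u - Real.log a)
      linarith
    · have hu : (0 : ℝ) < u := by exact_mod_cast lt_of_lt_of_le ha h
      have h7 : ((a + u : ℕ) : ℝ) / a ≤ 2 * u / a := by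
        refine div_le_div_of_nonneg_right ?_ ha'.le
        have : (a : ℝ) ≤ u := by exact_mod_cast h
        push_cast
        linarith
      have h9 := Real.log_le_log hx h7
      have h11 : Real.log (2 * u / a) = Real.log 2 + Real.log u - Real.log a := by
        rw [Real.log_div (by positivity) (by positivity),
          Real.log_mul (by positivity) (by positivity)]
      rw [h11] at h9
      have h8 := le_max_right 0 (Real.log u - Real.log a)
      linarith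
  have h10 := mul_le_mul_of_nonneg_left h6 ha'.le
  linarith

lemma log_max_div (u v : ℕ) (hv : 0 < v) :
    Real.log u - Real.log (2 * v) ≤ Real.log ((max 1 (u / v) : ℕ) : ℝ) := by
  have hv' : (1 : ℝ) ≤ v := by exact_mod_cast hv
  have h0 : (0 : ℝ) ≤ Real.log (2 * v) := Real.log_nonneg (by linarith)
  have h1 : (1 : ℝ) ≤ ((max 1 (u / v) : ℕ) : ℝ) := by exact_mod_cast le_max_left _ _
  rcases Nat.eq_zero_or_pos u with rfl | hu
  · have := Real.log_nonneg h1
    simp only [Nat.cast_zero, Real.log_zero]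
    linarith
  · have h2 : u ≤ 2 * v * max 1 (u / v) := by
      have h3 := Nat.lt_mul_div_succ u hv
      have h4 : u / v + 1 ≤ 2 * max 1 (u / v) := by omega
      calc u ≤ v * (u / v + 1) := h3.le
        _ ≤ v * (2 * max 1 (u / v)) := Nat.mul_le_mul_left _ h4
        _ = _ := by ring
    have h5 : (u : ℝ) ≤ 2 * v * ((max 1 (u / v) : ℕ) : ℝ) := by exact_mod_cast h2
    have hu' : (0 : ℝ) < u := by exact_mod_cast hu
    have h6 := Real.log_le_log hu' h5
    rw [Real.log_mul (by positivity) (by positivity)] at h6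
    linarith

/-- The real inequality. -/
lemma num (θ κ ε L S β a B k l2K l2n : ℝ) (hβ : 0 ≤ β) (hab : a ≤ β)
    (hk : 0 ≤ k) (hL : 0 ≤ L) (hε : 0 ≤ ε) (hl : 0 ≤ l2K)
    (hS : κ * L ≤ S) (hθ : 0 ≤ θ) (hS0 : 0 ≤ S)
    (g1 : (2 * (k + 3) + 1) * B ≤ θ / 4 * β) (g2 : 2 * (2 * (k + 3) + 1) * B ≤ θ * κ / 4 * β)
    (g3 : (k + 7) * ε ≤ θ * κ / 4) (g4 : (k + 5) * l2K + l2n + 2 * k + 4 ≤ θ * κ / 4 * L)
    (g5 : a ≤ (1 - θ) * β) (hB : 0 ≤ B) :
    β * ((1 + ε) * L) + β * (l2n + L) + (a * (2 + ε * L) + a * (2 * (k + 1) + S)) ≤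
      (β - (2 * (k + 3) + 1) * B) * (2 * L + S - (k + 5) * (ε * L + l2K)) := by
  have e1 : (2 * (k + 3) + 1) * B * S ≤ θ / 4 * β * S := mul_le_mul_of_nonneg_right g1 hS0
  have e2 : 2 * (2 * (k + 3) + 1) * B * L ≤ θ * κ / 4 * β * L :=
    mul_le_mul_of_nonneg_right g2 hL
  have e3 : (k + 7) * ε * (β * L) ≤ θ * κ / 4 * (β * L) :=
    mul_le_mul_of_nonneg_right g3 (mul_nonneg hβ hL)
  have e4 : ((k + 5) * l2K + l2n + 2 * k + 4) * β ≤ θ * κ / 4 * L * β :=
    mul_le_mul_of_nonneg_right g4 hβ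
  have e5 : a * S ≤ (1 - θ) * β * S := mul_le_mul_of_nonneg_right g5 hS0
  have e6 : θ * β * (κ * L) ≤ θ * β * S := mul_le_mul_of_nonneg_left hS (mul_nonneg hθ hβ)
  have e7 : a * (ε * L + 2 * k + 4) ≤ β * (ε * L + 2 * k + 4) :=
    mul_le_mul_of_nonneg_right hab (by positivity)
  have e8 : 0 ≤ (2 * (k + 3) + 1) * B * ((k + 5) * (ε * L + l2K)) := by positivity
  nlinarith [e1, e2, e3, e4, e5, e6, e7, e8]

/-- The logarithm of the lower side. -/
lemma low (k K B b : ℕ) (ε : ℝ) (lam : Fin (k + 3) → ℕ) (L K' : ℝ) (hK : 0 < K) (hB : 0 < B)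
    (hBb : B ≤ b) (hKK : (K : ℝ) ≤ K') (hb : Real.log b ≤ (1 + ε) * L)
    (h0 : (2 - ε) * L ≤ Real.log (lam 0)) (h1 : (2 - ε) * L ≤ Real.log (lam 1))
    (hL : 0 ≤ L) (hε : 0 ≤ ε) :
    2 * L + (∑ i : Fin (k + 1), max 0 (Real.log (lam i.succ.succ) - L)) -
        (k + 5) * (ε * L + Real.log (2 * K')) ≤
      ∑ i : Fin (k + 3), Real.log ((max 1 (lam i / (K * B)) : ℕ) : ℝ) := by
  have hK1 : (1 : ℝ) ≤ K := by exact_mod_cast hK
  have hB1 : (1 : ℝ) ≤ B := by exact_mod_cast hB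
  have hBb' : (B : ℝ) ≤ b := by exact_mod_cast hBb
  have hKB : 0 < K * B := Nat.mul_pos hK hB
  have hl : 0 ≤ Real.log (2 * K') := Real.log_nonneg (by linarith)
  have hM : Real.log (2 * ((K * B : ℕ) : ℝ)) ≤ L + (ε * L + Real.log (2 * K')) := by
    have e1 : 2 * ((K * B : ℕ) : ℝ) = (2 * K) * B := by push_cast; ring
    have e2 : Real.log (2 * (K : ℝ)) ≤ Real.log (2 * K') :=
      Real.log_le_log (by linarith) (by linarith)
    have e3 : Real.log (B : ℝ) ≤ Real.log b := Real.log_le_log (by linarith) hBb'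
    rw [e1, Real.log_mul (by positivity) (by positivity)]
    linarith
  obtain ⟨E, hE⟩ : ∃ E, E = ε * L + Real.log (2 * K') := ⟨_, rfl⟩
  have hEL : ε * L ≤ E := by linarith
  have hE0 : 0 ≤ E := by
    rw [hE]
    positivity
  rw [← hE] at hM ⊢
  have key : ∀ i : Fin (k + 3), Real.log (lam i) - (L + E) ≤
      Real.log ((max 1 (lam i / (K * B)) : ℕ) : ℝ) := fun i => by
    have := log_max_div (lam i) (K * B) hKB
    linarith
  have key0 : ∀ i : Fin (k + 3), 0 ≤ Real.log ((max 1 (lam i / (K * B)) : ℕ) : ℝ) := fun i =>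
    Real.log_nonneg (by exact_mod_cast le_max_left _ _)
  have e6 : ∑ i : Fin (k + 3), Real.log ((max 1 (lam i / (K * B)) : ℕ) : ℝ) =
      Real.log ((max 1 (lam 0 / (K * B)) : ℕ) : ℝ) +
      (Real.log ((max 1 (lam 1 / (K * B)) : ℕ) : ℝ) +
      ∑ i : Fin (k + 1), Real.log ((max 1 (lam i.succ.succ / (K * B)) : ℕ) : ℝ)) := by
    rw [Fin.sum_univ_succ, Fin.sum_univ_succ]
    rfl
  rw [e6]
  have f0 := key 0
  have f1 := key 1
  have f2 : ∑ i : Fin (k + 1), (max 0 (Real.log (lam i.succ.succ) - L) - E) ≤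
      ∑ i : Fin (k + 1), Real.log ((max 1 (lam i.succ.succ / (K * B)) : ℕ) : ℝ) := by
    refine Finset.sum_le_sum fun i _ => ?_
    have g1 := key i.succ.succ
    have g2 := key0 i.succ.succ
    rcases le_total 0 (Real.log (lam i.succ.succ) - L) with h | h
    · rw [max_eq_right h]
      linarith
    · rw [max_eq_left h]
      linarith
  rw [Finset.sum_sub_distrib, Finset.sum_const, Finset.card_univ, Fintype.card_fin,
    nsmul_eq_mul, Nat.cast_add, Nat.cast_one] at f2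
  nlinarith [f0, f1, f2, h0, h1]

/-- The number of blocks. -/
lemma blocks (a b n K : ℕ) (δ ε' : ℝ) (hδ : 0 < δ) (hn0 : 0 < n) (ha : 0 < a)
    (hε'0 : 0 < ε') (hε'1 : ε' ≤ 1 / 4) (hε'2 : (1 + δ) * ε' = δ / 4)
    (hab : (1 + δ) * a ≤ b) (an1 : 4 * (n : ℝ) / δ ≤ a) (an2 : 4 * (n : ℝ) ≤ a)
    (aK2 : 2 * (K : ℝ) / ε' ≤ a) :
    ∃ B : ℕ, 0 < B ∧ B ≤ b ∧ n * B ≤ b ∧ b ≤ 2 * n * B ∧ n * B * a + K * a + K * B ≤ a * b ∧
      (1 + δ / 2) * a ≤ (n : ℝ) * B := by
  have hnR : (0 : ℝ) < n := by exact_mod_cast hn0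
  have ha0 : (0 : ℝ) < a := by exact_mod_cast ha
  have hab' : (a : ℝ) ≤ b := by
    have := mul_pos hδ ha0
    linarith
  have hb0 : (0 : ℝ) < b := by linarith
  obtain ⟨B, hBdef⟩ : ∃ B : ℕ, B = ⌊(1 - ε') * b / n⌋₊ := ⟨_, rfl⟩
  have h1e : 0 ≤ 1 - ε' := by linarith
  have hB1 : (n : ℝ) * B ≤ (1 - ε') * b := by
    have h1 : (B : ℝ) ≤ (1 - ε') * b / n := by
      rw [hBdef]
      exact Nat.floor_le (by positivity)
    rw [le_div_iff₀ hnR] at h1
    linarith
  have hB2 : (1 - ε') * b - n ≤ n * B := by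
    have h1 := Nat.lt_floor_add_one ((1 - ε') * (b : ℝ) / n)
    rw [← hBdef, div_lt_iff₀ hnR] at h1
    linarith
  have hB3 : (1 + δ / 2) * a ≤ (n : ℝ) * B := by
    have h1 : (n : ℝ) ≤ δ / 4 * a := by
      rw [div_le_iff₀ hδ] at an1
      linarith
    have h2 : (1 - ε') * ((1 + δ) * a) ≤ (1 - ε') * b :=
      mul_le_mul_of_nonneg_left hab (by linarith)
    have h3 : (1 - ε') * ((1 + δ) * a) = (1 + δ) * a - (1 + δ) * ε' * a := by ring
    rw [h3, hε'2] at h2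
    linarith
  have hB0R : (0 : ℝ) < B := by
    by_contra hc
    have h1 : (n : ℝ) * B ≤ 0 := mul_nonpos_of_nonneg_of_nonpos hnR.le (not_lt.1 hc)
    have h2 : 0 < (1 + δ / 2) * (a : ℝ) := by positivity
    linarith
  have hn1' : (1 : ℝ) ≤ n := by exact_mod_cast hn0
  have he : 0 ≤ ε' * b := by positivity
  have h4 : (n : ℝ) * B ≤ b := by linarith
  have hBb : (B : ℝ) ≤ b := (le_mul_of_one_le_left hB0R.le hn1').trans h4
  have hKε : (K : ℝ) ≤ ε' / 2 * a := by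
    rw [div_le_iff₀ hε'0] at aK2
    linarith
  refine ⟨B, by exact_mod_cast hB0R, by exact_mod_cast hBb, by exact_mod_cast h4, ?_, ?_, hB3⟩
  · have h5 : ε' * b ≤ 1 / 4 * b := mul_le_mul_of_nonneg_right hε'1 hb0.le
    have h1 : (b : ℝ) ≤ 2 * n * B := by linarith
    exact_mod_cast h1
  · have h1 : (n : ℝ) * B * a ≤ (1 - ε') * b * a := mul_le_mul_of_nonneg_right hB1 ha0.le
    have h2 : (K : ℝ) * a ≤ ε' / 2 * b * a := by
      refine mul_le_mul_of_nonneg_right (hKε.trans ?_) ha0.le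
      exact mul_le_mul_of_nonneg_left hab' (by positivity)
    have h3 : (K : ℝ) * B ≤ ε' / 2 * a * b :=
      mul_le_mul hKε hBb hB0R.le (by positivity)
    have h4 : (n : ℝ) * B * a + K * a + K * B ≤ a * b := by linarith
    exact_mod_cast h4

/-- The gap is long enough. -/
lemma gapc (a b B K k : ℕ) (x y : ℕ) (ε κ L : ℝ) (hK : 0 < K) (hb0 : 0 < b)
    (hab : a ≤ b) (hBb : B ≤ b) (hx : 0 < x)
    (hlb : Real.log b ≤ (1 + ε) * L) (hlog2 : (1 + κ) * L ≤ Real.log x)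
    (hκL : Real.log (2 * K * (k + 3)) ≤ κ / 2 * L) (hε2 : ε ≤ κ / 2) (hL0 : 0 ≤ L)
    (hgap : x ≤ (k + 3) * y) : K * (a + B) ≤ y := by
  have hK1 : (0 : ℝ) < K := by exact_mod_cast hK
  have hb1 : (0 : ℝ) < b := by exact_mod_cast hb0
  have hx1 : (0 : ℝ) < x := by exact_mod_cast hx
  have h3 : (2 : ℝ) * K * (k + 3) * b ≤ x := by
    refine (Real.log_le_log_iff (by positivity) hx1).1 ?_
    rw [Real.log_mul (by positivity) (by positivity)]
    have h5 : ε * L ≤ κ / 2 * L := mul_le_mul_of_nonneg_right hε2 hL0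
    linarith
  have h4 : 2 * K * (k + 3) * b ≤ x := by exact_mod_cast h3
  have h6 : (k + 3) * (K * (a + B)) ≤ (k + 3) * y := by
    calc (k + 3) * (K * (a + B)) ≤ (k + 3) * (K * (b + b)) := by gcongr
      _ = 2 * K * (k + 3) * b := by ring
      _ ≤ x := h4
      _ ≤ _ := hgap
  exact Nat.le_of_mul_le_mul_left h6 (by omega)

/-- The final comparison. -/
lemma fin_cmp (k n a b B K : ℕ) (lam : Fin (k + 3) → ℕ) (θ κ ε L K' : ℝ) (ha : 0 < a)
    (hL : L = Real.log a) (hn4 : 4 * (k + 3) + 4 ≤ n)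
    (hn1 : (2 * (k + 3) + 1 : ℝ) ≤ θ / 4 * n)
    (hn2 : 2 * (2 * (k + 3) + 1 : ℝ) ≤ θ * κ / 4 * n)
    (hε1 : (k + 7) * ε ≤ θ * κ / 4) (hε : 0 ≤ ε) (hκ : 0 ≤ κ) (hθ0 : 0 ≤ θ) (hθ1 : θ ≤ 1)
    (hDL : (k + 5) * Real.log (2 * K') + Real.log (2 * n) + 2 * k + 4 ≤ θ * κ / 4 * L)
    (hKK : (K : ℝ) ≤ K') (hK : 0 < K)
    (hlb : Real.log b ≤ (1 + ε) * L) (h0 : (2 - ε) * L ≤ Real.log (lam 0))
    (h1 : (2 - ε) * L ≤ Real.log (lam 1)) (h2 : (1 + κ) * L ≤ Real.log (lam 2))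
    (hB0 : 0 < B) (hBb : B ≤ b) (hnB : n * B ≤ b) (hab : a ≤ b)
    (hB3 : (a : ℝ) ≤ (1 - θ) * (n * B)) :
    (n * B).factorial * (n + n * a).choose n ^ B * ((a + b).choose a *
      ∏ i : Fin (k + 1), (a + lam i.succ.succ).choose (lam i.succ.succ)) ≤
      (∏ i : Fin (k + 3), max 1 (lam i / (K * B)) ^ (n - 2 * (k + 3) - 1)) ^ B := by
  have ha0 : (0 : ℝ) < a := by exact_mod_cast ha
  have ha1 : (1 : ℝ) ≤ a := by exact_mod_cast ha
  have hn0 : 0 < n := by omega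
  have hnR : (0 : ℝ) < n := by exact_mod_cast hn0
  have hBR : (0 : ℝ) < B := by exact_mod_cast hB0
  have hK1 : (1 : ℝ) ≤ K := by exact_mod_cast hK
  have hL0 : 0 ≤ L := by
    rw [hL]
    exact Real.log_nonneg ha1
  have hb0 : 0 < b := by omega
  have hbR : (0 : ℝ) < b := by exact_mod_cast hb0
  have hl : 0 ≤ Real.log (2 * K') := Real.log_nonneg (by linarith)
  obtain ⟨S, hS⟩ : ∃ S, S = ∑ i : Fin (k + 1), max 0 (Real.log (lam i.succ.succ) - L) := ⟨_, rfl⟩
  have hlow := low k K B b ε lam L K' hK hB0 hBb hKK hlb h0 h1 hL0 hε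
  rw [← hS] at hlow
  have hS1 : κ * L ≤ S := by
    have e1 : max 0 (Real.log (lam (Fin.succ (Fin.succ (0 : Fin (k + 1))))) - L) ≤ S := by
      rw [hS]
      exact Finset.single_le_sum (f := fun i : Fin (k + 1) =>
        max 0 (Real.log (lam i.succ.succ) - L)) (fun i _ => le_max_left _ _) (Finset.mem_univ 0)
    have e2 : (Fin.succ (Fin.succ (0 : Fin (k + 1)))) = 2 := rfl
    rw [e2] at e1
    have e3 := le_max_right 0 (Real.log (lam 2) - L)
    linarith
  have hS0 : 0 ≤ S := le_trans (by positivity) hS1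
  have hβ : 0 ≤ (n : ℝ) * B := by positivity
  have hnum := num θ κ ε L S (n * B) a B k (Real.log (2 * K')) (Real.log (2 * n)) hβ
    (by nlinarith) (Nat.cast_nonneg k) hL0 hε hl hS1 hθ0 hS0
    (by
      have := mul_le_mul_of_nonneg_right hn1 hBR.le
      linarith)
    (by
      have := mul_le_mul_of_nonneg_right hn2 hBR.le
      linarith) hε1 hDL hB3 hBR.le
  have hF : Real.log ((n * B).factorial : ℝ) ≤ n * B * ((1 + ε) * L) := by
    have e1 : ((n * B).factorial : ℝ) ≤ (b : ℝ) ^ (n * B) := by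
      have : (n * B).factorial ≤ b ^ (n * B) :=
        (Nat.factorial_le_pow (n * B)).trans (Nat.pow_le_pow_left hnB _)
      exact_mod_cast this
    have e2 : (0 : ℝ) < (n * B).factorial := by exact_mod_cast Nat.factorial_pos _
    have e3 := Real.log_le_log e2 e1
    rw [Real.log_pow, Nat.cast_mul] at e3
    exact e3.trans (mul_le_mul_of_nonneg_left hlb hβ)
  have hC : Real.log ((n + n * a).choose n : ℝ) ≤ n * (Real.log (2 * n) + L) := by
    have e1 : ((n + n * a).choose n : ℝ) ≤ (2 * n * a) ^ n := by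
      have e0 : (n + n * a).choose n ≤ (n + n * a) ^ n := Nat.choose_le_pow _ _
      have e00 : n + n * a ≤ 2 * n * a := by nlinarith
      exact_mod_cast e0.trans (Nat.pow_le_pow_left e00 _)
    have e2 : (0 : ℝ) < (n + n * a).choose n := by
      exact_mod_cast Nat.choose_pos (Nat.le_add_right _ _)
    have e3 := Real.log_le_log e2 e1
    rw [Real.log_pow, Real.log_mul (by positivity) (by positivity), ← hL] at e3
    exact e3
  have hV1 : Real.log ((a + b).choose a : ℝ) ≤ a * (2 + ε * L) := by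
    have e1 := log_choose_le a b ha
    rw [← Nat.choose_symm_add] at e1
    refine e1.trans (mul_le_mul_of_nonneg_left ?_ ha0.le)
    have : max 0 (Real.log b - Real.log a) ≤ ε * L :=
      max_le (by positivity) (by rw [← hL]; linarith)
    linarith
  have hV2 : Real.log ((∏ i : Fin (k + 1),
      (a + lam i.succ.succ).choose (lam i.succ.succ) : ℕ) : ℝ) ≤ a * (2 * (k + 1) + S) := by
    rw [Nat.cast_prod, Real.log_prod]
    · calc ∑ i : Fin (k + 1), Real.log ((a + lam i.succ.succ).choose (lam i.succ.succ) : ℝ)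
          ≤ ∑ i : Fin (k + 1), a * (2 + max 0 (Real.log (lam i.succ.succ) - L)) :=
            Finset.sum_le_sum fun i _ => by
              rw [hL]
              exact log_choose_le a _ ha
        _ = a * (2 * (k + 1) + S) := by
            rw [← Finset.mul_sum, Finset.sum_add_distrib, ← hS, Finset.sum_const,
              Finset.card_univ, Fintype.card_fin, nsmul_eq_mul]
            push_cast
            ring
    · intro i _
      have := Nat.choose_pos (Nat.le_add_left (lam i.succ.succ) a)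
      positivity
  obtain ⟨q, hq⟩ : ∃ q, q = n - 2 * (k + 3) - 1 := ⟨_, rfl⟩
  have hqR : (q : ℝ) = n - (2 * (k + 3) + 1) := by
    have : q + (2 * (k + 3) + 1) = n := by omega
    have h' : (q : ℝ) + (2 * (k + 3) + 1) = n := by exact_mod_cast this
    linarith
  rw [← hq]
  obtain ⟨R, hR⟩ : ∃ R, R = ∑ i : Fin (k + 3),
    Real.log ((max 1 (lam i / (K * B)) : ℕ) : ℝ) := ⟨_, rfl⟩
  rw [← hR] at hlow
  have hmax : ∀ i : Fin (k + 3), 0 < max 1 (lam i / (K * B)) := fun i =>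
    lt_of_lt_of_le Nat.one_pos (le_max_left _ _)
  have hP : Real.log (((∏ i : Fin (k + 3), max 1 (lam i / (K * B)) ^ q) ^ B : ℕ) : ℝ) =
      B * (q * R) := by
    have e1 : ∑ i : Fin (k + 3), Real.log ((max 1 (lam i / (K * B)) ^ q : ℕ) : ℝ) = q * R := by
      rw [hR, Finset.mul_sum]
      refine Finset.sum_congr rfl fun i _ => ?_
      rw [Nat.cast_pow, Real.log_pow]
    rw [Nat.cast_pow, Real.log_pow, Nat.cast_prod, Real.log_prod, e1]
    intro i _
    have := pow_pos (hmax i) q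
    positivity
  have pF : 0 < (n * B).factorial := Nat.factorial_pos _
  have pC : 0 < (n + n * a).choose n := Nat.choose_pos (Nat.le_add_right _ _)
  have pV1 : 0 < (a + b).choose a := Nat.choose_pos (Nat.le_add_right _ _)
  have pV2 : 0 < ∏ i : Fin (k + 1), (a + lam i.succ.succ).choose (lam i.succ.succ) :=
    Finset.prod_pos fun i _ => Nat.choose_pos (Nat.le_add_left _ _)
  have pP : 0 < (∏ i : Fin (k + 3), max 1 (lam i / (K * B)) ^ q) ^ B :=
    pow_pos (Finset.prod_pos fun i _ => pow_pos (hmax i) _) _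
  obtain ⟨V, hV⟩ : ∃ V, V = ∏ i : Fin (k + 1),
    (a + lam i.succ.succ).choose (lam i.succ.succ) := ⟨_, rfl⟩
  obtain ⟨P, hPd⟩ : ∃ P, P = (∏ i : Fin (k + 3), max 1 (lam i / (K * B)) ^ q) ^ B := ⟨_, rfl⟩
  rw [← hV] at hV2 pV2 ⊢
  rw [← hPd] at hP pP ⊢
  have pall : 0 < (n * B).factorial * (n + n * a).choose n ^ B * ((a + b).choose a * V) := by
    positivity
  have hlhs : Real.log (((n * B).factorial * (n + n * a).choose n ^ B *
      ((a + b).choose a * V) : ℕ) : ℝ) = Real.log ((n * B).factorial : ℝ) +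
      B * Real.log ((n + n * a).choose n : ℝ) +
      (Real.log ((a + b).choose a : ℝ) + Real.log (V : ℝ)) := by
    rw [Nat.cast_mul, Nat.cast_mul, Nat.cast_mul, Nat.cast_pow,
      Real.log_mul, Real.log_mul, Real.log_mul, Real.log_pow]
    all_goals positivity
  have hfin : Real.log (((n * B).factorial * (n + n * a).choose n ^ B *
      ((a + b).choose a * V) : ℕ) : ℝ) ≤ Real.log (P : ℝ) := by
    rw [hlhs, hP]
    have r1 : (B : ℝ) * Real.log ((n + n * a).choose n : ℝ) ≤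
        n * B * (Real.log (2 * n) + L) := by
      have := mul_le_mul_of_nonneg_left hC hBR.le
      linarith
    have r2 : ((n : ℝ) * B - (2 * (k + 3) + 1) * B) *
        (2 * L + S - (k + 5) * (ε * L + Real.log (2 * K'))) ≤ B * (q * R) := by
      have e1 : (n : ℝ) * B - (2 * (k + 3) + 1) * B = B * q := by rw [hqR]; ring
      rw [e1, mul_assoc]
      exact mul_le_mul_of_nonneg_left (mul_le_mul_of_nonneg_left hlow (Nat.cast_nonneg q)) hBR.le
    linarith
  have := (Real.log_le_log_iff (by exact_mod_cast pall) (by exact_mod_cast pP)).1 hfin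
  exact_mod_cast this

/-- One gap. -/
theorem coreJ (hLow : LowR) (hU : UpR) (k j n : ℕ) (δ κ ε : ℝ) (hδ : 0 < δ) (hκ : 0 < κ)
    (hε : 0 < ε) (hj3 : 3 ≤ j) (hjm : j ≤ k + 3) (hn4 : 4 * (k + 3) + 4 ≤ n)
    (hnm : (k + 3).factorial ∣ n)
    (hn1 : (2 * (k + 3) + 1 : ℝ) ≤ δ / (2 + δ) / 4 * n)
    (hn2 : 2 * (2 * (k + 3) + 1 : ℝ) ≤ δ / (2 + δ) * κ / 4 * n)
    (hε1 : (k + 7) * ε ≤ δ / (2 + δ) * κ / 4) (hε2 : ε ≤ κ / 2) :
    ∃ A : ℝ, 0 < A ∧ ∀ (a b : ℕ) (lam : Fin (k + 3) → ℕ), Antitone lam →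
      ∑ i, lam i = a * b → A ≤ a → (1 + δ) * a ≤ b → (b : ℝ) ≤ (a : ℝ) ^ (1 + ε) →
      (a : ℝ) ^ (2 - ε) ≤ lam 1 → (a : ℝ) ^ (1 + κ) ≤ lam 2 → lam 2 ≤ (k + 3) * gap lam j →
      plethMult a b (k + 3) lam ≤ plethMult b a (k + 3) lam := by
  obtain ⟨K, hK, hLow⟩ := hLow (k + 3) j n hj3 hjm hn4 hnm
  obtain ⟨ε', hε'⟩ : ∃ ε', ε' = δ / (4 * (1 + δ)) := ⟨_, rfl⟩
  have hε'0 : 0 < ε' := by rw [hε']; positivity
  have hε'1 : ε' ≤ 1 / 4 := by
    rw [hε', div_le_iff₀ (by positivity)]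
    linarith
  have hε'2 : (1 + δ) * ε' = δ / 4 := by
    rw [hε']
    field_simp
  obtain ⟨θ, hθ⟩ : ∃ θ, θ = δ / (2 + δ) := ⟨_, rfl⟩
  rw [← hθ] at hn1 hn2 hε1
  have hθ0 : 0 < θ := by rw [hθ]; positivity
  have hθ1 : θ ≤ 1 := by
    rw [hθ, div_le_one (by positivity)]
    linarith
  have hθ2 : (1 - θ) * (1 + δ / 2) = 1 := by
    rw [hθ]
    field_simp
    ring
  have hK1 : (1 : ℝ) ≤ K := by exact_mod_cast hK
  have hn0 : 0 < n := by omega
  have hnR : (0 : ℝ) < n := by exact_mod_cast hn0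
  obtain ⟨D, hD⟩ : ∃ D : ℝ, D = (k + 5) * Real.log (2 * K) + Real.log (2 * n) + 2 * k + 4 :=
    ⟨_, rfl⟩
  refine ⟨2 + K + 4 * n / δ + 4 * n + 2 * K / ε' + Real.exp (4 * D / (θ * κ)) +
    Real.exp (2 * Real.log (2 * K * (k + 3)) / κ), by positivity, ?_⟩
  intro a b lam hlam hsum hA hab hbε hl1 hl2 hgap
  have p1 : 0 < 4 * (n : ℝ) / δ := by positivity
  have p2 : 0 < 2 * (K : ℝ) / ε' := by positivity
  have p3 := Real.exp_pos (4 * D / (θ * κ))
  have p4 := Real.exp_pos (2 * Real.log (2 * K * (k + 3)) / κ)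
  have a2 : (2 : ℝ) ≤ a := by linarith
  have aK : (K : ℝ) ≤ a := by linarith
  have an1 : 4 * (n : ℝ) / δ ≤ a := by linarith
  have an2 : 4 * (n : ℝ) ≤ a := by linarith
  have aK2 : 2 * (K : ℝ) / ε' ≤ a := by linarith
  have aD : Real.exp (4 * D / (θ * κ)) ≤ a := by linarith
  have aκ : Real.exp (2 * Real.log (2 * K * (k + 3)) / κ) ≤ a := by linarith
  have ha0 : (0 : ℝ) < a := by linarith
  have ha : 0 < a := by exact_mod_cast ha0
  obtain ⟨L, hL⟩ : ∃ L, L = Real.log a := ⟨_, rfl⟩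
  have hL0 : 0 ≤ L := by
    rw [hL]
    exact Real.log_nonneg (by linarith)
  have hDL : D ≤ θ * κ / 4 * L := by
    have := (Real.le_log_iff_exp_le ha0).2 aD
    rw [← hL, div_le_iff₀ (by positivity)] at this
    linarith
  have hκL : Real.log (2 * K * (k + 3)) ≤ κ / 2 * L := by
    have := (Real.le_log_iff_exp_le ha0).2 aκ
    rw [← hL, div_le_iff₀ hκ] at this
    linarith
  have hab' : (a : ℝ) ≤ b := by
    have := mul_pos hδ ha0
    linarith
  have hb0 : (0 : ℝ) < b := by linarith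
  have hlb : Real.log b ≤ (1 + ε) * L := by
    have := Real.log_le_log hb0 hbε
    rw [Real.log_rpow ha0, ← hL] at this
    exact this
  have hlog1 : (2 - ε) * L ≤ Real.log (lam 1) := by
    have := Real.log_le_log (Real.rpow_pos_of_pos ha0 _) hl1
    rw [Real.log_rpow ha0, ← hL] at this
    exact this
  have hlog2 : (1 + κ) * L ≤ Real.log (lam 2) := by
    have := Real.log_le_log (Real.rpow_pos_of_pos ha0 _) hl2
    rw [Real.log_rpow ha0, ← hL] at this
    exact this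
  have hlam1 : (0 : ℝ) < lam 1 := lt_of_lt_of_le (Real.rpow_pos_of_pos ha0 _) hl1
  have hlam2 : (0 : ℝ) < lam 2 := lt_of_lt_of_le (Real.rpow_pos_of_pos ha0 _) hl2
  have hlog0 : (2 - ε) * L ≤ Real.log (lam 0) := by
    refine hlog1.trans (Real.log_le_log hlam1 ?_)
    have : lam 1 ≤ lam 0 := hlam (Fin.zero_le _)
    exact_mod_cast this
  obtain ⟨B, hB0, hBb, hnBb, c3, c4, hB3⟩ :=
    blocks a b n K δ ε' hδ hn0 ha hε'0 hε'1 hε'2 hab an1 an2 aK2
  have c5 : K * (a + B) ≤ gap lam j :=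
    gapc a b B K k (lam 2) (gap lam j) ε κ L hK (by exact_mod_cast hb0) (by exact_mod_cast hab')
      hBb (by exact_mod_cast hlam2) hlb hlog2 hκL hε2 hL0 hgap
  have hm := hLow a b B (gap lam) (by exact_mod_cast aK) hB0 c3 c4 c5
    ((sum_gap hlam).trans hsum)
  rw [gw_gap hlam] at hm
  have hup := hU (k + 1) a b lam hlam
  have hB4 : (a : ℝ) ≤ (1 - θ) * (n * B) := by
    have h1 := mul_le_mul_of_nonneg_left hB3 (sub_nonneg.2 hθ1)
    have h2 : (1 - θ) * ((1 + δ / 2) * (a : ℝ)) = a := by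
      rw [← mul_assoc, hθ2, one_mul]
    linarith
  have hcmp := fin_cmp k n a b B K lam θ κ ε L K ha hL hn4 hn1 hn2 hε1 hε.le hκ.le hθ0.le hθ1
    (hD ▸ hDL) le_rfl hK hlb hlog0 hlog1 hlog2 hB0 hBb hnBb (by exact_mod_cast hab') hB4
  have pX : 0 < (n * B).factorial * (n + n * a).choose n ^ B :=
    Nat.mul_pos (Nat.factorial_pos _) (pow_pos (Nat.choose_pos (Nat.le_add_right _ _)) _)
  exact Nat.le_of_mul_le_mul_left
    ((Nat.mul_le_mul_left _ hup).trans (hcmp.trans hm)) pX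

/-- A long drop. -/
lemma exists_gap (k : ℕ) (lam : Fin (k + 3) → ℕ) (hlam : Antitone lam) :
    ∃ j, 3 ≤ j ∧ j ≤ k + 3 ∧ lam 2 ≤ (k + 3) * gap lam j := by
  have h1 := ext_eq hlam 2 (by omega)
  have h2 : ext lam 2 = lam 2 := by
    rw [ext, dif_pos (by omega)]
    rfl
  rw [h2] at h1
  by_contra hc0
  have hc : ∀ j, 3 ≤ j → j ≤ k + 3 → (k + 3) * gap lam j < lam 2 := fun j h3 h4 =>
    not_le.1 fun h => hc0 ⟨j, h3, h4, h⟩
  have h3 : ∀ j ∈ Finset.Ioc 2 (k + 3), (k + 3) * gap lam j ≤ lam 2 - 1 := by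
    intro j hj
    rw [Finset.mem_Ioc] at hj
    have := hc j (by omega) hj.2
    omega
  have h4 := Finset.sum_le_sum h3
  rw [← Finset.mul_sum, h1, Finset.sum_const, Nat.card_Ioc, smul_eq_mul] at h4
  have h5 : 0 < lam 2 := by
    have := hc 3 le_rfl (by omega)
    omega
  have h6 : k + 3 - 2 = k + 1 := by omega
  rw [h6] at h4
  have h7 : (k + 1) * (lam 2 - 1) ≤ (k + 1) * lam 2 := Nat.mul_le_mul_left _ (Nat.sub_le _ _)
  have h8 : (k + 3) * lam 2 = (k + 1) * lam 2 + 2 * lam 2 := by ring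
  omega

/-- **(N8)**. -/
theorem coreR (hLow : LowR) (hU : UpR) : CoreR := by
  intro k δ κ hδ hκ
  obtain ⟨θ, hθ⟩ : ∃ θ, θ = δ / (2 + δ) := ⟨_, rfl⟩
  have hθ0 : 0 < θ := by rw [hθ]; positivity
  obtain ⟨ε, hε⟩ : ∃ ε, ε = min (κ / 2) (θ * κ / 4 / (k + 7)) := ⟨_, rfl⟩
  have hε0 : 0 < ε := by
    rw [hε]
    exact lt_min (by positivity) (by positivity)
  have hε2 : ε ≤ κ / 2 := by rw [hε]; exact min_le_left _ _
  have hε1 : ((k : ℝ) + 7) * ε ≤ θ * κ / 4 := by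
    have h1 : ε ≤ θ * κ / 4 / (k + 7) := by rw [hε]; exact min_le_right _ _
    rw [le_div_iff₀ (by positivity)] at h1
    linarith
  obtain ⟨N, hN⟩ := exists_nat_ge (max (4 * (k + 3) + 4 : ℝ)
    (max ((2 * (k + 3) + 1) / (θ / 4)) (2 * (2 * (k + 3) + 1) / (θ * κ / 4))))
  obtain ⟨n, hn⟩ : ∃ n, n = (k + 3).factorial * N := ⟨_, rfl⟩
  have hNn : N ≤ n := by
    rw [hn]
    exact Nat.le_mul_of_pos_left _ (Nat.factorial_pos _)
  have hNnR : (N : ℝ) ≤ n := by exact_mod_cast hNn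
  have hn4 : 4 * (k + 3) + 4 ≤ n := by
    have h1 : (4 * (k + 3) + 4 : ℝ) ≤ n := ((le_max_left _ _).trans hN).trans hNnR
    exact_mod_cast h1
  have hn1 : (2 * (k + 3) + 1 : ℝ) ≤ θ / 4 * n := by
    have h1 : (2 * (k + 3) + 1 : ℝ) / (θ / 4) ≤ n :=
      (((le_max_left _ _).trans (le_max_right _ _)).trans hN).trans hNnR
    rw [div_le_iff₀ (by positivity)] at h1
    linarith
  have hn2 : 2 * (2 * (k + 3) + 1 : ℝ) ≤ θ * κ / 4 * n := by
    have h1 : 2 * (2 * (k + 3) + 1 : ℝ) / (θ * κ / 4) ≤ n :=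
      (((le_max_right _ _).trans (le_max_right _ _)).trans hN).trans hNnR
    rw [div_le_iff₀ (by positivity)] at h1
    linarith
  rw [hθ] at hε1 hn1 hn2
  have hJ : ∀ j : ℕ, ∃ A : ℝ, 0 < A ∧ (3 ≤ j → j ≤ k + 3 →
      ∀ (a b : ℕ) (lam : Fin (k + 3) → ℕ), Antitone lam →
      ∑ i, lam i = a * b → A ≤ a → (1 + δ) * a ≤ b → (b : ℝ) ≤ (a : ℝ) ^ (1 + ε) →
      (a : ℝ) ^ (2 - ε) ≤ lam 1 → (a : ℝ) ^ (1 + κ) ≤ lam 2 → lam 2 ≤ (k + 3) * gap lam j →
      plethMult a b (k + 3) lam ≤ plethMult b a (k + 3) lam) := by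
    intro j
    by_cases hj : 3 ≤ j ∧ j ≤ k + 3
    · obtain ⟨A, hA, h⟩ := coreJ hLow hU k j n δ κ ε hδ hκ hε0 hj.1 hj.2 hn4
        (hn ▸ Dvd.intro _ rfl) hn1 hn2 hε1 hε2
      exact ⟨A, hA, fun _ _ => h⟩
    · exact ⟨1, one_pos, fun h3 h4 => absurd ⟨h3, h4⟩ hj⟩
  choose A hA hJ using hJ
  refine ⟨ε, 1 + ∑ j ∈ Finset.range (k + 4), A j, hε0, ?_, ?_⟩
  · have : 0 ≤ ∑ j ∈ Finset.range (k + 4), A j := Finset.sum_nonneg fun j _ => (hA j).le
    linarith
  · intro a b lam hlam hsum hAa hab hbε hl1 hl2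
    obtain ⟨j, hj3, hjm, hgap⟩ := exists_gap k lam hlam
    refine hJ j hj3 hjm a b lam hlam hsum ?_ hab hbε hl1 hl2 hgap
    have h1 : A j ≤ ∑ j ∈ Finset.range (k + 4), A j :=
      Finset.single_le_sum (fun i _ => (hA i).le) (Finset.mem_range.2 (by omega))
    linarith

end Vale.Agent.P181.NR.H118
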